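import Crest.Agent.BoxFlow.Defs

/-!
# Separable terms and stream-function fields (package W5 of the S0170 plan, analysis part)
-/

set_option autoImplicit false

open scoped ContDiff
open Crest.AnalysisR.BoxFlow

namespace Crest.Agent.Helper3

open Crest.Agent.BoxFlow

variable {m : ℝ → ℝ} {f : Fin 3 → ℝ → ℝ}

/-- scalar amplitude of a separable term -/
noncomputable def sepAmp (m : ℝ → ℝ) (f : Fin 3 → ℝ → ℝ) (p : ℝ × (Fin 3 → ℝ)) : ℝ :=
  m p.1 * ∏ i : Fin 3, f i (p.2 i)

theorem sepTerm_eq (m : ℝ → ℝ) (f : Fin 3 → ℝ → ℝ) (j : Fin 3) :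
    sepTerm m f j = fun p => Pi.single j (sepAmp m f p) := rfl

theorem sepTerm_apply (m : ℝ → ℝ) (f : Fin 3 → ℝ → ℝ) (j : Fin 3) (p : ℝ × (Fin 3 → ℝ)) :
    sepTerm m f j p = Pi.single j (sepAmp m f p) := rfl

theorem contDiff_sepAmp (hm : ContDiff ℝ ∞ m) (hf : ∀ i, ContDiff ℝ ∞ (f i)) :
    ContDiff ℝ ∞ (sepAmp m f) := by
  unfold sepAmp
  refine (hm.comp contDiff_fst).mul ?_
  refine contDiff_prod fun i _ => (hf i).comp ?_
  exact (contDiff_apply ℝ ℝ i).comp contDiff_snd

theorem contDiff_sepTerm (hm : ContDiff ℝ ∞ m) (hf : ∀ i, ContDiff ℝ ∞ (f i)) (j : Fin 3) :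
    ContDiff ℝ ∞ (sepTerm m f j) := by
  rw [sepTerm_eq, contDiff_pi]
  intro i
  by_cases hi : i = j
  · subst hi
    simpa using contDiff_sepAmp hm hf
  · simp only [Pi.single_eq_of_ne hi]
    exact contDiff_const

theorem hasDerivAt_single {g : ℝ → ℝ} {g' : ℝ} {t : ℝ} (j : Fin 3) (h : HasDerivAt g g' t) :
    HasDerivAt (fun s => (Pi.single j (g s) : Fin 3 → ℝ)) (Pi.single j g') t := by
  rw [hasDerivAt_pi]
  intro i
  by_cases hi : i = j
  · subst hi
    simpa using h
  · simp only [Pi.single_eq_of_ne hi]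
    exact hasDerivAt_const _ _

theorem fderiv_sepTerm_time (hm : ContDiff ℝ ∞ m) (hf : ∀ i, ContDiff ℝ ∞ (f i)) (j : Fin 3)
    (p : ℝ × (Fin 3 → ℝ)) :
    fderiv ℝ (sepTerm m f j) p (1, 0) = sepTerm (deriv m) f j p := by
  have hd : DifferentiableAt ℝ (sepTerm m f j) p :=
    (contDiff_sepTerm hm hf j).differentiable (by simp) p
  rw [← hd.lineDeriv_eq_fderiv]
  unfold lineDeriv
  apply HasDerivAt.deriv
  rw [sepTerm_apply]
  have h1 : HasDerivAt (fun t : ℝ => m (p.1 + t)) (deriv m p.1) 0 := by
    have : HasDerivAt m (deriv m p.1) (p.1 + 0) := by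
      rw [add_zero]; exact (hm.differentiable (by simp) p.1).hasDerivAt
    exact this.comp_const_add p.1 0
  have h2 := h1.mul_const (∏ i : Fin 3, f i (p.2 i))
  have h3 := hasDerivAt_single j h2
  refine h3.congr_of_eventuallyEq (Filter.Eventually.of_forall fun t => ?_)
  simp [sepTerm_apply, sepAmp]

theorem fderiv_sepTerm_space (hm : ContDiff ℝ ∞ m) (hf : ∀ i, ContDiff ℝ ∞ (f i)) (j i : Fin 3)
    (p : ℝ × (Fin 3 → ℝ)) :
    fderiv ℝ (sepTerm m f j) p (0, Pi.single i 1)
      = sepTerm m (Function.update f i (deriv (f i))) j p := by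
  have hd : DifferentiableAt ℝ (sepTerm m f j) p :=
    (contDiff_sepTerm hm hf j).differentiable (by simp) p
  rw [← hd.lineDeriv_eq_fderiv]
  unfold lineDeriv
  apply HasDerivAt.deriv
  rw [sepTerm_apply]
  have hfi : ∀ i' : Fin 3, HasDerivAt (fun t : ℝ => f i' (p.2 i' + t)) (deriv (f i') (p.2 i')) 0 := by
    intro i'
    have : HasDerivAt (f i') (deriv (f i') (p.2 i')) (p.2 i' + 0) := by
      rw [add_zero]; exact ((hf i').differentiable (by simp) _).hasDerivAt
    exact this.comp_const_add (p.2 i') 0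
  have key : HasDerivAt (fun t : ℝ => sepAmp m f (p + t • ((0 : ℝ), (Pi.single i (1 : ℝ) : Fin 3 → ℝ))))
      (sepAmp m (Function.update f i (deriv (f i))) p) 0 := by
    unfold sepAmp
    simp only [Fin.prod_univ_three]
    fin_cases i
    · have h := (((hfi 0).mul_const (f 1 (p.2 1))).mul_const (f 2 (p.2 2))).const_mul (m p.1)
      refine (h.congr_of_eventuallyEq (Filter.Eventually.of_forall fun t => ?_)).congr_deriv ?_
      · simp
      · simp
    · have h := (((hfi 1).const_mul (f 0 (p.2 0))).mul_const (f 2 (p.2 2))).const_mul (m p.1)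
      refine (h.congr_of_eventuallyEq (Filter.Eventually.of_forall fun t => ?_)).congr_deriv ?_
      · simp
      · simp
    · have h := ((hfi 2).const_mul (f 0 (p.2 0) * f 1 (p.2 1))).const_mul (m p.1)
      refine (h.congr_of_eventuallyEq (Filter.Eventually.of_forall fun t => ?_)).congr_deriv ?_
      · simp
      · simp
  exact hasDerivAt_single j key

theorem direction_zero : direction 0 = ((1 : ℝ), (0 : Fin 3 → ℝ)) := by
  simp [direction]

theorem direction_succ (i : Fin 3) :
    direction i.succ = ((0 : ℝ), (Pi.single i (1 : ℝ) : Fin 3 → ℝ)) := by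
  simp [direction, Fin.succ_ne_zero]

theorem contDiff_iteratedDeriv' {g : ℝ → ℝ} (hg : ContDiff ℝ ∞ g) (k : ℕ) :
    ContDiff ℝ ∞ (iteratedDeriv k g) := by
  rw [iteratedDeriv_eq_iterate]
  exact hg.iterate_deriv k

/-- **Mixed derivatives of a separable term.** -/
theorem mixedDeriv_sepTerm (hm : ContDiff ℝ ∞ m) (hf : ∀ i, ContDiff ℝ ∞ (f i))
    (ds : List (Fin 4)) (j : Fin 3) :
    mixedDeriv ds (sepTerm m f j) =
      sepTerm (iteratedDeriv (ds.count 0) m)
        (fun i => iteratedDeriv (ds.count i.succ) (f i)) j := by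
  induction ds with
  | nil =>
    simp [mixedDeriv]
  | cons d ds ih =>
    have hm' := contDiff_iteratedDeriv' hm (ds.count 0)
    have hf' : ∀ i : Fin 3, ContDiff ℝ ∞ (iteratedDeriv (ds.count i.succ) (f i)) :=
      fun i => contDiff_iteratedDeriv' (hf i) _
    funext p
    show fderiv ℝ (mixedDeriv ds (sepTerm m f j)) p (direction d) = _
    rw [ih]
    induction d using Fin.cases with
    | zero =>
      rw [direction_zero, fderiv_sepTerm_time hm' hf']
      have h0 : (0 :: ds : List (Fin 4)).count 0 = ds.count 0 + 1 := by simp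
      have hs : ∀ i : Fin 3, (0 :: ds : List (Fin 4)).count i.succ = ds.count i.succ := by
        intro i
        rw [List.count_cons_of_ne (Fin.succ_ne_zero i).symm]
      rw [h0, iteratedDeriv_succ]
      simp only [hs]
    | succ i =>
      rw [direction_succ, fderiv_sepTerm_space hm' hf']
      have h0 : (i.succ :: ds : List (Fin 4)).count 0 = ds.count 0 := by
        rw [List.count_cons_of_ne (Fin.succ_ne_zero i)]
      rw [h0]
      congr 1
      funext i'
      by_cases hi : i' = i
      · subst hi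
        simp [iteratedDeriv_succ]
      · have hne : (i.succ : Fin 4) ≠ i'.succ := fun h => hi (Fin.succ_injective _ h).symm
        rw [Function.update_of_ne hi, List.count_cons_of_ne hne]

/-- Divergence of a separable term. -/
theorem spaceDiv_sepTerm (hm : ContDiff ℝ ∞ m) (hf : ∀ i, ContDiff ℝ ∞ (f i)) (j : Fin 3)
    (p : ℝ × (Fin 3 → ℝ)) :
    spaceDiv (sepTerm m f j) p
      = m p.1 * ∏ i, (Function.update f j (deriv (f j))) i (p.2 i) := by
  unfold spaceDiv
  simp only [fderiv_sepTerm_space hm hf, sepTerm_apply]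
  rw [Finset.sum_eq_single j]
  · simp [sepAmp]
  · intro b _ hb
    simp [Pi.single_eq_of_ne hb]
  · intro h; exact absurd (Finset.mem_univ j) h

theorem hasCompactSupport_sepTerm (hm : HasCompactSupport m) (hf : ∀ i, HasCompactSupport (f i))
    (j : Fin 3) : HasCompactSupport (sepTerm m f j) := by
  have hK : IsCompact ((tsupport m) ×ˢ (Set.pi Set.univ fun i : Fin 3 => tsupport (f i))) :=
    hm.isCompact.prod (isCompact_univ_pi fun i => (hf i).isCompact)
  refine HasCompactSupport.intro hK fun p hp => ?_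
  rw [sepTerm_apply]
  have : sepAmp m f p = 0 := by
    unfold sepAmp
    by_cases h1 : p.1 ∈ tsupport m
    · have h2 : ¬ ∀ i : Fin 3, p.2 i ∈ tsupport (f i) := by
        intro h
        exact hp ⟨h1, fun i _ => h i⟩
      simp only [not_forall] at h2
      obtain ⟨i, hi⟩ := h2
      have : f i (p.2 i) = 0 := image_eq_zero_of_notMem_tsupport hi
      rw [Finset.prod_eq_zero (Finset.mem_univ i) this, mul_zero]
    · rw [image_eq_zero_of_notMem_tsupport h1, zero_mul]
  rw [this, Pi.single_zero]

/-! ### Stream-function fields -/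

theorem streamField_apply (m : ℝ → ℝ) (f : Fin 3 → ℝ → ℝ) (a b : Fin 3) (p : ℝ × (Fin 3 → ℝ)) :
    streamField m f a b p
      = Pi.single a (m p.1 * ∏ i, Function.update f b (deriv (f b)) i (p.2 i))
        - Pi.single b (m p.1 * ∏ i, Function.update f a (deriv (f a)) i (p.2 i)) := rfl

theorem contDiff_update_deriv (hf : ∀ i, ContDiff ℝ ∞ (f i)) (b : Fin 3) :
    ∀ i, ContDiff ℝ ∞ (Function.update f b (deriv (f b)) i) := by
  intro i
  by_cases hi : i = b
  · subst hi
    rw [Function.update_self]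
    have := contDiff_iteratedDeriv' (hf i) 1
    rwa [iteratedDeriv_one] at this
  · rw [Function.update_of_ne hi]; exact hf i

theorem streamField_contDiff (hm : ContDiff ℝ ∞ m) (hf : ∀ i, ContDiff ℝ ∞ (f i)) (a b : Fin 3) :
    ContDiff ℝ ∞ (streamField m f a b) :=
  (contDiff_sepTerm hm (contDiff_update_deriv hf b) a).sub
    (contDiff_sepTerm hm (contDiff_update_deriv hf a) b)

theorem spaceDiv_sub {U V : Field} (hU : ContDiff ℝ ∞ U) (hV : ContDiff ℝ ∞ V)
    (p : ℝ × (Fin 3 → ℝ)) : spaceDiv (U - V) p = spaceDiv U p - spaceDiv V p := by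
  unfold spaceDiv
  rw [fderiv_sub (hU.differentiable (by simp) p) (hV.differentiable (by simp) p)]
  simp [Finset.sum_sub_distrib]

theorem spaceDiv_add {U V : Field} (hU : ContDiff ℝ ∞ U) (hV : ContDiff ℝ ∞ V)
    (p : ℝ × (Fin 3 → ℝ)) : spaceDiv (U + V) p = spaceDiv U p + spaceDiv V p := by
  unfold spaceDiv
  rw [fderiv_add (hU.differentiable (by simp) p) (hV.differentiable (by simp) p)]
  simp [Finset.sum_add_distrib]

/-- Stream-function fields are divergence free. -/
theorem streamField_spaceDiv (hm : ContDiff ℝ ∞ m) (hf : ∀ i, ContDiff ℝ ∞ (f i)) {a b : Fin 3}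
    (hab : a ≠ b) (p : ℝ × (Fin 3 → ℝ)) : spaceDiv (streamField m f a b) p = 0 := by
  unfold streamField
  rw [spaceDiv_sub (contDiff_sepTerm hm (contDiff_update_deriv hf b) a)
    (contDiff_sepTerm hm (contDiff_update_deriv hf a) b),
    spaceDiv_sepTerm hm (contDiff_update_deriv hf b) a,
    spaceDiv_sepTerm hm (contDiff_update_deriv hf a) b]
  rw [Function.update_of_ne hab, Function.update_of_ne hab.symm, Function.update_comm hab]
  ring

theorem streamField_hasCompactSupport (hm : HasCompactSupport m)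
    (hf : ∀ i, HasCompactSupport (f i)) (a b : Fin 3) :
    HasCompactSupport (streamField m f a b) := by
  have hu : ∀ c : Fin 3, ∀ i, HasCompactSupport (Function.update f c (deriv (f c)) i) := by
    intro c i
    by_cases hi : i = c
    · subst hi
      rw [Function.update_self]
      exact (hf i).deriv
    · rw [Function.update_of_ne hi]; exact hf i
  exact (hasCompactSupport_sepTerm hm (hu b) a).sub (hasCompactSupport_sepTerm hm (hu a) b)

theorem prod_fin_three {a b c : Fin 3} (hab : a ≠ b) (hca : c ≠ a) (hcb : c ≠ b) (g : Fin 3 → ℝ) :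
    ∏ i, g i = g a * g b * g c := by
  have huniv : (Finset.univ : Finset (Fin 3)) = {a, b, c} := by
    revert a b c; decide
  rw [huniv, Finset.prod_insert, Finset.prod_insert, Finset.prod_singleton, mul_assoc]
  · simp [hcb.symm]
  · simp [hab, hca.symm]

/-- components of a stream-function field; `c` is the third axis -/
theorem streamField_apply_fst {a b c : Fin 3} (hab : a ≠ b) (hca : c ≠ a) (hcb : c ≠ b)
    (p : ℝ × (Fin 3 → ℝ)) :
    streamField m f a b p a = m p.1 * (f a (p.2 a) * deriv (f b) (p.2 b) * f c (p.2 c)) := by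
  rw [streamField_apply, Pi.sub_apply, Pi.single_eq_same, Pi.single_eq_of_ne hab, sub_zero,
    prod_fin_three hab hca hcb, Function.update_of_ne hab, Function.update_self,
    Function.update_of_ne hcb]

theorem streamField_apply_snd {a b c : Fin 3} (hab : a ≠ b) (hca : c ≠ a) (hcb : c ≠ b)
    (p : ℝ × (Fin 3 → ℝ)) :
    streamField m f a b p b = -(m p.1 * (deriv (f a) (p.2 a) * f b (p.2 b) * f c (p.2 c))) := by
  rw [streamField_apply, Pi.sub_apply, Pi.single_eq_same, Pi.single_eq_of_ne hab.symm, zero_sub,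
    prod_fin_three hab hca hcb, Function.update_self, Function.update_of_ne hab.symm,
    Function.update_of_ne hca]

theorem streamField_apply_third {a b c : Fin 3} (hca : c ≠ a) (hcb : c ≠ b)
    (p : ℝ × (Fin 3 → ℝ)) :
    streamField m f a b p c = 0 := by
  rw [streamField_apply, Pi.sub_apply, Pi.single_eq_of_ne hca, Pi.single_eq_of_ne hcb, sub_zero]

end Crest.Agent.Helper3
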