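import Crest.Agent.BoxFlow.Defs
import Crest.Agent.Helper3.BoxFlowSep

/-!
# Effectivity of separable terms and stream-function fields (package W5 of the S0170 plan)
-/

set_option autoImplicit false

open scoped ContDiff
open Crest.AnalysisR.BoxFlow

namespace Crest.Agent.Helper3

open Crest.Agent.BoxFlow

/-! ### Linearity of mixed derivatives -/

theorem contDiff_mixedDeriv {U : Field} (hU : ContDiff ℝ ∞ U) (ds : List (Fin 4)) :
    ContDiff ℝ ∞ (mixedDeriv ds U) := by
  induction ds with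
  | nil => exact hU
  | cons d ds ih =>
    show ContDiff ℝ ∞ (fun p => fderiv ℝ (mixedDeriv ds U) p (direction d))
    exact (ih.fderiv_right (m := ∞) (by simp)).clm_apply contDiff_const

theorem mixedDeriv_add {U V : Field} (hU : ContDiff ℝ ∞ U) (hV : ContDiff ℝ ∞ V)
    (ds : List (Fin 4)) : mixedDeriv ds (U + V) = mixedDeriv ds U + mixedDeriv ds V := by
  induction ds with
  | nil => rfl
  | cons d ds ih =>
    funext p
    show fderiv ℝ (mixedDeriv ds (U + V)) p (direction d)
      = fderiv ℝ (mixedDeriv ds U) p (direction d) + fderiv ℝ (mixedDeriv ds V) p (direction d)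
    rw [ih, fderiv_add ((contDiff_mixedDeriv hU ds).differentiable (by simp) p)
      ((contDiff_mixedDeriv hV ds).differentiable (by simp) p)]
    rfl

theorem mixedDeriv_neg (U : Field) (ds : List (Fin 4)) :
    mixedDeriv ds (-U) = -mixedDeriv ds U := by
  induction ds with
  | nil => rfl
  | cons d ds ih =>
    funext p
    show fderiv ℝ (mixedDeriv ds (-U)) p (direction d)
      = -(fderiv ℝ (mixedDeriv ds U) p (direction d))
    rw [ih, fderiv_neg]
    rfl

theorem mixedDeriv_zero (ds : List (Fin 4)) : mixedDeriv ds (0 : Field) = 0 := by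
  induction ds with
  | nil => rfl
  | cons d ds ih =>
    funext p
    show fderiv ℝ (mixedDeriv ds (0 : Field)) p (direction d) = 0
    rw [ih]
    simp

theorem mixedDeriv_sub {U V : Field} (hU : ContDiff ℝ ∞ U) (hV : ContDiff ℝ ∞ V)
    (ds : List (Fin 4)) : mixedDeriv ds (U - V) = mixedDeriv ds U - mixedDeriv ds V := by
  rw [sub_eq_add_neg, mixedDeriv_add hU (show ContDiff ℝ ∞ (-V) from hV.neg), mixedDeriv_neg,
    sub_eq_add_neg]

/-! ### Computability plumbing -/

/-- the facts about computable rational arithmetic used in this file -/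
structure RatOps : Prop where
  add : Computable₂ ((· + ·) : ℚ → ℚ → ℚ)
  mul : Computable₂ ((· * ·) : ℚ → ℚ → ℚ)
  neg : Computable (Neg.neg : ℚ → ℚ)

theorem computable_fin3 {α : Type*} [Primcodable α] {F : α → Fin 3 → ℚ}
    (h : ∀ j, Computable (fun x => F x j)) : Computable F :=
  (Primrec.vector_get'.to_comp.comp (Computable.vector_ofFn h)).of_eq fun a => by
    funext i; simp

theorem computable_fin3_app {α : Type*} [Primcodable α] {F : α → Fin 3 → ℚ}
    (h : Computable F) (j : Fin 3) : Computable (fun x => F x j) :=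
  Computable.fin_app.comp h (Computable.const j)

theorem effective_zero : Effective (0 : Field) := by
  refine ⟨fun _ => 0, fun _ => 0, Computable.const _, Computable.const _, ?_, ?_⟩
  · intro ds t q n j
    rw [mixedDeriv_zero]
    simp
    positivity
  · intro ds p j
    rw [mixedDeriv_zero]
    simp

theorem effective_neg (R : RatOps) {U : Field} (hU : Effective U) : Effective (-U) := by
  obtain ⟨E, b, hE, hb, h1, h2⟩ := hU
  refine ⟨fun x => fun j => -(E x j), b, ?_, hb, ?_, ?_⟩
  · exact computable_fin3 fun j => R.neg.comp (computable_fin3_app hE j)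
  · intro ds t q n j
    rw [mixedDeriv_neg]
    have := h1 ds t q n j
    simp only [Pi.neg_apply, Rat.cast_neg]
    rw [← abs_neg]
    convert this using 2
    ring
  · intro ds p j
    rw [mixedDeriv_neg]
    simpa using h2 ds p j

theorem effective_add (R : RatOps) {U V : Field} (hU : ContDiff ℝ ∞ U) (hV : ContDiff ℝ ∞ V)
    (eU : Effective U) (eV : Effective V) : Effective (U + V) := by
  obtain ⟨EU, bU, hEU, hbU, hU1, hU2⟩ := eU
  obtain ⟨EV, bV, hEV, hbV, hV1, hV2⟩ := eV
  have hshift : Computable (fun x : List (Fin 4) × (ℚ × (Fin 3 → ℚ)) × ℕ =>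
      (x.1, x.2.1, 2 * x.2.2 + 1)) := by
    refine Computable.pair Computable.fst (Computable.pair (Computable.fst.comp Computable.snd) ?_)
    have : Primrec (fun n : ℕ => 2 * n + 1) := Primrec.nat_double_succ
    exact this.to_comp.comp (Computable.snd.comp Computable.snd)
  refine ⟨fun x => fun j => EU (x.1, x.2.1, 2 * x.2.2 + 1) j + EV (x.1, x.2.1, 2 * x.2.2 + 1) j,
    fun ds => bU ds + bV ds, ?_, ?_, ?_, ?_⟩
  · exact computable_fin3 fun j => R.add.comp (computable_fin3_app (hEU.comp hshift) j)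
      (computable_fin3_app (hEV.comp hshift) j)
  · exact Primrec.nat_add.to_comp.comp hbU hbV
  · intro ds t q n j
    rw [mixedDeriv_add hU hV]
    have h1 := hU1 ds t q (2 * n + 1) j
    have h2 := hV1 ds t q (2 * n + 1) j
    have e : (1 : ℝ) / (((2 * n + 1 : ℕ) : ℝ) + 1) = 1 / ((n : ℝ) + 1) / 2 := by
      push_cast
      field_simp
      ring
    rw [e] at h1 h2
    simp only [Pi.add_apply, Rat.cast_add]
    calc |mixedDeriv ds U (↑t, ratPoint q) j + mixedDeriv ds V (↑t, ratPoint q) j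
          - ((EU (ds, (t, q), 2 * n + 1) j : ℝ) + (EV (ds, (t, q), 2 * n + 1) j : ℝ))|
        = |(mixedDeriv ds U (↑t, ratPoint q) j - (EU (ds, (t, q), 2 * n + 1) j : ℝ))
          + (mixedDeriv ds V (↑t, ratPoint q) j - (EV (ds, (t, q), 2 * n + 1) j : ℝ))| := by
          congr 1; ring
      _ ≤ 1 / ((n : ℝ) + 1) / 2 + 1 / ((n : ℝ) + 1) / 2 := (abs_add_le _ _).trans (add_le_add h1 h2)
      _ = 1 / ((n : ℝ) + 1) := by ring
  · intro ds p j
    rw [mixedDeriv_add hU hV]
    simp only [Pi.add_apply]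
    push_cast
    exact (abs_add_le _ _).trans (add_le_add (hU2 ds p j) (hV2 ds p j))

/-! ### Effectivity of separable terms -/

theorem gevreyBound_mono' {g : ℝ → ℝ} {a c a' c' : ℕ} (h : GevreyBound g a c) (ha : a ≤ a')
    (hc : c ≤ c') : GevreyBound g a' c' := by
  intro k x
  refine (h k x).trans ?_
  have ha' : (a : ℝ) ≤ a' := by exact_mod_cast ha
  have hc' : (c : ℝ) ≤ c' := by exact_mod_cast hc
  gcongr

/-- common bound function for derivatives of order `≤ L` -/
def Bf (A C L : ℕ) : ℕ := A * C ^ L * L.factorial ^ 3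

theorem primrec_Bf (A C : ℕ) : Primrec (Bf A C) := by
  have hstep : Primrec₂ (fun (L : ℕ) (v : ℕ) => v * (C * ((L + 1) * (L + 1) * (L + 1)))) := by
    have hL : Primrec (fun p : ℕ × ℕ => p.1 + 1) := Primrec.succ.comp Primrec.fst
    have h3 := Primrec.nat_mul.comp (Primrec.nat_mul.comp hL hL) hL
    have hC := Primrec.nat_mul.comp (Primrec.const C) h3
    exact Primrec.nat_mul.comp Primrec.snd hC
  have h := Primrec.nat_rec₁ A hstep
  refine h.of_eq fun L => ?_
  induction L with
  | zero => simp [Bf]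
  | succ L ih =>
    have hs : Bf A C (L + 1) = Bf A C L * (C * ((L + 1) * (L + 1) * (L + 1))) := by
      simp only [Bf, Nat.factorial_succ, pow_succ]
      ring
    rw [hs, ← ih]

theorem gevrey_le_Bf {g : ℝ → ℝ} {A C : ℕ} (h : GevreyBound g A C) (hC : 1 ≤ C) {k L : ℕ}
    (hk : k ≤ L) (x : ℝ) : |iteratedDeriv k g x| ≤ (Bf A C L : ℝ) := by
  refine (h k x).trans ?_
  unfold Bf
  push_cast
  have h1 : (C : ℝ) ^ k ≤ (C : ℝ) ^ L := pow_le_pow_right₀ (by exact_mod_cast hC) hk
  have h2 : (k.factorial : ℝ) ≤ L.factorial := by exact_mod_cast Nat.factorial_le hk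
  gcongr

/-- precision index used for the four factors -/
def precIdx (A C L n : ℕ) : ℕ :=
  4 * ((Bf A C L + 1) * (Bf A C L + 1) * (Bf A C L + 1)) * (n + 1)

theorem primrec₂_precIdx (A C : ℕ) : Primrec₂ (precIdx A C) := by
  have hB : Primrec (fun p : ℕ × ℕ => Bf A C p.1 + 1) :=
    Primrec.succ.comp ((primrec_Bf A C).comp Primrec.fst)
  have hBB := Primrec.nat_mul.comp (Primrec.nat_mul.comp hB hB) hB
  have h4 := Primrec.nat_mul.comp (Primrec.const 4) hBB
  have hn : Primrec (fun p : ℕ × ℕ => p.2 + 1) := Primrec.succ.comp Primrec.snd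
  exact Primrec.nat_mul.comp h4 hn

theorem primrec_count (d : Fin 4) : Primrec (fun l : List (Fin 4) => l.count d) := by
  have h : Primrec (fun l : List (Fin 4) => (l.filter (fun x => decide (x = d))).length) :=
    Primrec.list_length.comp
      (Primrec.listFilter (p := fun x => x = d) (Primrec.eq.comp Primrec.id (Primrec.const d)))
  refine h.of_eq fun l => ?_
  rw [List.count, List.countP_eq_length_filter]
  congr 1

theorem prod4_approx {v0 v1 v2 v3 q0 q1 q2 q3 X ε : ℝ} (hX : 0 ≤ X) (hε : 0 ≤ ε)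
    (hv1 : |v1| ≤ X) (hv2 : |v2| ≤ X) (hv3 : |v3| ≤ X)
    (hq0 : |q0| ≤ X) (hq1 : |q1| ≤ X) (hq2 : |q2| ≤ X)
    (h0 : |v0 - q0| ≤ ε) (h1 : |v1 - q1| ≤ ε) (h2 : |v2 - q2| ≤ ε) (h3 : |v3 - q3| ≤ ε) :
    |v0 * v1 * v2 * v3 - q0 * q1 * q2 * q3| ≤ 4 * ε * X ^ 3 := by
  have e : v0 * v1 * v2 * v3 - q0 * q1 * q2 * q3
      = (v0 - q0) * v1 * v2 * v3 + q0 * (v1 - q1) * v2 * v3 + q0 * q1 * (v2 - q2) * v3
        + q0 * q1 * q2 * (v3 - q3) := by ring
  rw [e]
  have t0 : |(v0 - q0) * v1 * v2 * v3| ≤ ε * X * X * X := by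
    rw [abs_mul, abs_mul, abs_mul]; gcongr
  have t1 : |q0 * (v1 - q1) * v2 * v3| ≤ X * ε * X * X := by
    rw [abs_mul, abs_mul, abs_mul]; gcongr
  have t2 : |q0 * q1 * (v2 - q2) * v3| ≤ X * X * ε * X := by
    rw [abs_mul, abs_mul, abs_mul]; gcongr
  have t3 : |q0 * q1 * q2 * (v3 - q3)| ≤ X * X * X * ε := by
    rw [abs_mul, abs_mul, abs_mul]; gcongr
  calc |(v0 - q0) * v1 * v2 * v3 + q0 * (v1 - q1) * v2 * v3 + q0 * q1 * (v2 - q2) * v3
        + q0 * q1 * q2 * (v3 - q3)|
      ≤ |(v0 - q0) * v1 * v2 * v3| + |q0 * (v1 - q1) * v2 * v3| + |q0 * q1 * (v2 - q2) * v3|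
        + |q0 * q1 * q2 * (v3 - q3)| := by
        refine (abs_add_le _ _).trans (add_le_add ((abs_add_le _ _).trans
          (add_le_add (abs_add_le _ _) le_rfl)) le_rfl)
    _ ≤ ε * X * X * X + X * ε * X * X + X * X * ε * X + X * X * X * ε := by
        linarith
    _ = 4 * ε * X ^ 3 := by ring

theorem mixedDeriv_sepTerm_apply {m : ℝ → ℝ} {f : Fin 3 → ℝ → ℝ} (hm : ContDiff ℝ ∞ m)
    (hf : ∀ i, ContDiff ℝ ∞ (f i)) (ds : List (Fin 4)) (j : Fin 3) (t : ℝ) (x : Fin 3 → ℝ)
    (j' : Fin 3) :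
    mixedDeriv ds (sepTerm m f j) (t, x) j' =
      if j' = j then iteratedDeriv (ds.count 0) m t * iteratedDeriv (ds.count 1) (f 0) (x 0)
        * iteratedDeriv (ds.count 2) (f 1) (x 1) * iteratedDeriv (ds.count 3) (f 2) (x 2)
      else 0 := by
  rw [mixedDeriv_sepTerm hm hf, sepTerm_apply]
  by_cases h : j' = j
  · subst h
    rw [if_pos rfl, Pi.single_eq_same]
    unfold sepAmp
    rw [Fin.prod_univ_three]
    have e1 : (0 : Fin 3).succ = (1 : Fin 4) := rfl
    have e2 : (1 : Fin 3).succ = (2 : Fin 4) := rfl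
    have e3 : (2 : Fin 3).succ = (3 : Fin 4) := rfl
    simp only [e1, e2, e3]
    ring
  · rw [if_neg h, Pi.single_eq_of_ne h]

/-- **Effectivity of a separable term**, from smoothness, common Gevrey bounds and computable
approximations of all derivatives of the four one-dimensional factors. -/
theorem effective_sepTerm_aux (R : RatOps) {m : ℝ → ℝ} {f : Fin 3 → ℝ → ℝ}
    (hm : ContDiff ℝ ∞ m) (hf : ∀ i, ContDiff ℝ ∞ (f i))
    {A C : ℕ} (hC : 1 ≤ C) (gm : GevreyBound m A C) (gf : ∀ i, GevreyBound (f i) A C)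
    (dm : DerivApprox m) (df : ∀ i, DerivApprox (f i)) (j : Fin 3) :
    Effective (sepTerm m f j) := by
  obtain ⟨A0, hA0, e0⟩ := dm
  obtain ⟨A1, hA1, e1⟩ := df 0
  obtain ⟨A2, hA2, e2⟩ := df 1
  obtain ⟨A3, hA3, e3⟩ := df 2
  have hN : Computable (fun x : List (Fin 4) × (ℚ × (Fin 3 → ℚ)) × ℕ =>
      precIdx A C x.1.length x.2.2) :=
    (primrec₂_precIdx A C).to_comp.comp (Computable.list_length.comp Computable.fst)
      (Computable.snd.comp Computable.snd)
  have hq : Computable (fun x : List (Fin 4) × (ℚ × (Fin 3 → ℚ)) × ℕ => x.2.1.2) :=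
    Computable.snd.comp (Computable.fst.comp Computable.snd)
  have c0 : Computable (fun x : List (Fin 4) × (ℚ × (Fin 3 → ℚ)) × ℕ =>
      A0 (x.1.count 0, x.2.1.1, precIdx A C x.1.length x.2.2)) :=
    hA0.comp (Computable.pair ((primrec_count 0).to_comp.comp Computable.fst)
      (Computable.pair (Computable.fst.comp (Computable.fst.comp Computable.snd)) hN))
  have c1 : Computable (fun x : List (Fin 4) × (ℚ × (Fin 3 → ℚ)) × ℕ =>
      A1 (x.1.count 1, x.2.1.2 0, precIdx A C x.1.length x.2.2)) :=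
    hA1.comp (Computable.pair ((primrec_count 1).to_comp.comp Computable.fst)
      (Computable.pair (computable_fin3_app hq 0) hN))
  have c2 : Computable (fun x : List (Fin 4) × (ℚ × (Fin 3 → ℚ)) × ℕ =>
      A2 (x.1.count 2, x.2.1.2 1, precIdx A C x.1.length x.2.2)) :=
    hA2.comp (Computable.pair ((primrec_count 2).to_comp.comp Computable.fst)
      (Computable.pair (computable_fin3_app hq 1) hN))
  have c3 : Computable (fun x : List (Fin 4) × (ℚ × (Fin 3 → ℚ)) × ℕ =>
      A3 (x.1.count 3, x.2.1.2 2, precIdx A C x.1.length x.2.2)) :=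
    hA3.comp (Computable.pair ((primrec_count 3).to_comp.comp Computable.fst)
      (Computable.pair (computable_fin3_app hq 2) hN))
  have hP : Computable (fun x : List (Fin 4) × (ℚ × (Fin 3 → ℚ)) × ℕ =>
      A0 (x.1.count 0, x.2.1.1, precIdx A C x.1.length x.2.2)
        * A1 (x.1.count 1, x.2.1.2 0, precIdx A C x.1.length x.2.2)
        * A2 (x.1.count 2, x.2.1.2 1, precIdx A C x.1.length x.2.2)
        * A3 (x.1.count 3, x.2.1.2 2, precIdx A C x.1.length x.2.2)) :=
    R.mul.comp (R.mul.comp (R.mul.comp c0 c1) c2) c3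
  have hbound : Computable (fun ds : List (Fin 4) =>
      Bf A C ds.length * Bf A C ds.length * Bf A C ds.length * Bf A C ds.length) := by
    have hB : Primrec (fun ds : List (Fin 4) => Bf A C ds.length) :=
      (primrec_Bf A C).comp Primrec.list_length
    exact (Primrec.nat_mul.comp (Primrec.nat_mul.comp (Primrec.nat_mul.comp hB hB) hB) hB).to_comp
  refine ⟨fun x => fun j' => if j' = j then
      A0 (x.1.count 0, x.2.1.1, precIdx A C x.1.length x.2.2)
        * A1 (x.1.count 1, x.2.1.2 0, precIdx A C x.1.length x.2.2)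
        * A2 (x.1.count 2, x.2.1.2 1, precIdx A C x.1.length x.2.2)
        * A3 (x.1.count 3, x.2.1.2 2, precIdx A C x.1.length x.2.2) else 0,
    fun ds => Bf A C ds.length * Bf A C ds.length * Bf A C ds.length * Bf A C ds.length,
    ?_, hbound, ?_, ?_⟩
  · refine computable_fin3 fun j' => ?_
    by_cases h : j' = j
    · simp only [if_pos h]
      exact hP
    · simp only [if_neg h]
      exact Computable.const 0
  · intro ds t q n j'
    rw [mixedDeriv_sepTerm_apply hm hf]
    by_cases h : j' = j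
    · simp only [if_pos h]
      set L := ds.length with hL
      set N := precIdx A C L n with hNdef
      have hcount : ∀ d : Fin 4, ds.count d ≤ L := fun d => List.count_le_length
      set X : ℝ := (Bf A C L : ℝ) + 1 with hXdef
      have hBnn : (0 : ℝ) ≤ (Bf A C L : ℝ) := Nat.cast_nonneg _
      have hX1 : (1 : ℝ) ≤ X := by linarith
      have hX0 : (0 : ℝ) ≤ X := by linarith
      set ε : ℝ := 1 / ((N : ℝ) + 1) with hεdef
      have hNnn : (0 : ℝ) ≤ (N : ℝ) := Nat.cast_nonneg _
      have hε0 : 0 ≤ ε := by positivity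
      have hε1 : ε ≤ 1 := by
        rw [hεdef, div_le_one (by positivity)]; linarith
      have b0 := gevrey_le_Bf gm hC (hcount 0) (t : ℝ)
      have b1 := gevrey_le_Bf (gf 0) hC (hcount 1) (ratPoint q 0)
      have b2 := gevrey_le_Bf (gf 1) hC (hcount 2) (ratPoint q 1)
      have b3 := gevrey_le_Bf (gf 2) hC (hcount 3) (ratPoint q 2)
      have a0 := e0 (ds.count 0) t N
      have a1 := e1 (ds.count 1) (q 0) N
      have a2 := e2 (ds.count 2) (q 1) N
      have a3 := e3 (ds.count 3) (q 2) N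
      have hqb : ∀ v qq : ℝ, |v| ≤ (Bf A C L : ℝ) → |v - qq| ≤ ε → |qq| ≤ X := by
        intro v qq hv hvq
        have : |qq| ≤ |v| + |v - qq| := by
          have := abs_sub_abs_le_abs_sub qq v
          rw [abs_sub_comm qq v] at this
          linarith
        linarith
      have hvb : ∀ v : ℝ, |v| ≤ (Bf A C L : ℝ) → |v| ≤ X := fun v hv => by linarith
      have key := prod4_approx hX0 hε0 (hvb _ b1) (hvb _ b2) (hvb _ b3)
        (hqb _ _ b0 a0) (hqb _ _ b1 a1) (hqb _ _ b2 a2) a0 a1 a2 a3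
      have hfin : 4 * ε * X ^ 3 ≤ 1 / ((n : ℝ) + 1) := by
        have hNval : (N : ℝ) = 4 * (X * X * X) * ((n : ℝ) + 1) := by
          rw [hNdef, precIdx]; push_cast; ring
        have hn0 : (0 : ℝ) < (n : ℝ) + 1 := by positivity
        have hX3 : (0 : ℝ) < X * X * X := by positivity
        rw [hεdef, hNval]
        rw [show 4 * (1 / (4 * (X * X * X) * ((n : ℝ) + 1) + 1)) * X ^ 3
          = (4 * (X * X * X)) / (4 * (X * X * X) * ((n : ℝ) + 1) + 1) by ring]
        rw [div_le_div_iff₀ (by positivity) hn0]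
        nlinarith
      refine le_trans (le_of_eq ?_) (key.trans hfin)
      congr 1
      simp only [ratPoint, Rat.cast_mul]
    · simp only [if_neg h, Rat.cast_zero, sub_zero, abs_zero]
      positivity
  · intro ds p j'
    obtain ⟨t, x⟩ := p
    rw [mixedDeriv_sepTerm_apply hm hf]
    by_cases h : j' = j
    · simp only [if_pos h]
      have hcount : ∀ d : Fin 4, ds.count d ≤ ds.length := fun d => List.count_le_length
      have b0 := gevrey_le_Bf gm hC (hcount 0) t
      have b1 := gevrey_le_Bf (gf 0) hC (hcount 1) (x 0)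
      have b2 := gevrey_le_Bf (gf 1) hC (hcount 2) (x 1)
      have b3 := gevrey_le_Bf (gf 2) hC (hcount 3) (x 2)
      rw [abs_mul, abs_mul, abs_mul]
      push_cast
      gcongr
    · simp only [if_neg h, abs_zero]
      positivity

/-- effective one-dimensional function, with approximations of all derivatives -/
structure Eff1D (f : ℝ → ℝ) : Prop where
  smooth : ContDiff ℝ ∞ f
  gevrey : ∃ a c : ℕ, GevreyBound f a c
  dapprox : DerivApprox f

theorem gevreyBound_deriv {f : ℝ → ℝ} {a c : ℕ} (hg : GevreyBound f a c) :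
    GevreyBound (deriv f) (a * c) (8 * c) := by
  intro k x
  have h := hg (k + 1) x
  rw [iteratedDeriv_succ'] at h
  refine h.trans ?_
  have hk : k + 1 ≤ 2 ^ k := Nat.lt_two_pow_self
  have h3 : (k + 1) ^ 3 ≤ 8 ^ k := by
    calc (k + 1) ^ 3 ≤ (2 ^ k) ^ 3 := Nat.pow_le_pow_left hk 3
      _ = 8 ^ k := by rw [← pow_mul, mul_comm, pow_mul]; norm_num
  have hN : a * c ^ (k + 1) * (k + 1).factorial ^ 3 ≤ a * c * (8 * c) ^ k * k.factorial ^ 3 := by
    calc a * c ^ (k + 1) * (k + 1).factorial ^ 3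
        = a * c * c ^ k * k.factorial ^ 3 * (k + 1) ^ 3 := by
          rw [Nat.factorial_succ, pow_succ, mul_pow]; ring
      _ ≤ a * c * c ^ k * k.factorial ^ 3 * 8 ^ k := Nat.mul_le_mul_left _ h3
      _ = a * c * (8 * c) ^ k * k.factorial ^ 3 := by rw [mul_pow]; ring
  exact_mod_cast hN

theorem eff1D_deriv {f : ℝ → ℝ} (h : Eff1D f) : Eff1D (deriv f) := by
  refine ⟨?_, ?_, ?_⟩
  · have := contDiff_iteratedDeriv' h.smooth 1
    rwa [iteratedDeriv_one] at this
  · obtain ⟨a, c, hg⟩ := h.gevrey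
    exact ⟨a * c, 8 * c, gevreyBound_deriv hg⟩
  · obtain ⟨A, hA, hAe⟩ := h.dapprox
    refine ⟨fun x => A (x.1 + 1, x.2), ?_, fun k r n => ?_⟩
    · exact hA.comp (Computable.pair (Computable.succ.comp Computable.fst) Computable.snd)
    · have := hAe (k + 1) r n
      rwa [iteratedDeriv_succ'] at this

theorem effective_sepTerm' (R : RatOps) {m : ℝ → ℝ} {f : Fin 3 → ℝ → ℝ}
    (hm : Eff1D m) (hf : ∀ i, Eff1D (f i)) (j : Fin 3) : Effective (sepTerm m f j) := by
  obtain ⟨am, cm, gm⟩ := hm.gevrey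
  obtain ⟨a0, c0, g0⟩ := (hf 0).gevrey
  obtain ⟨a1, c1, g1⟩ := (hf 1).gevrey
  obtain ⟨a2, c2, g2⟩ := (hf 2).gevrey
  have gf : ∀ i, GevreyBound (f i) (am + a0 + a1 + a2) (cm + c0 + c1 + c2 + 1) := by
    intro i
    fin_cases i
    · exact gevreyBound_mono' g0 (by omega) (by omega)
    · exact gevreyBound_mono' g1 (by omega) (by omega)
    · exact gevreyBound_mono' g2 (by omega) (by omega)
  exact effective_sepTerm_aux R hm.smooth (fun i => (hf i).smooth) (by omega)
    (gevreyBound_mono' gm (by omega) (by omega)) gf hm.dapprox (fun i => (hf i).dapprox) j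

theorem eff1D_update_deriv {f : Fin 3 → ℝ → ℝ} (hf : ∀ i, Eff1D (f i)) (b : Fin 3) :
    ∀ i, Eff1D (Function.update f b (deriv (f b)) i) := by
  intro i
  by_cases hi : i = b
  · subst hi
    rw [Function.update_self]
    exact eff1D_deriv (hf i)
  · rw [Function.update_of_ne hi]; exact hf i

/-- **Effectivity of a stream-function field.** -/
theorem streamField_effective' (R : RatOps) {m : ℝ → ℝ} {f : Fin 3 → ℝ → ℝ}
    (hm : Eff1D m) (hf : ∀ i, Eff1D (f i)) (a b : Fin 3) : Effective (streamField m f a b) := by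
  have h1 := effective_sepTerm' R hm (eff1D_update_deriv hf b) a
  have h2 := effective_sepTerm' R hm (eff1D_update_deriv hf a) b
  have s1 := contDiff_sepTerm hm.smooth (fun i => (eff1D_update_deriv hf b i).smooth) a
  have s2 := contDiff_sepTerm hm.smooth (fun i => (eff1D_update_deriv hf a i).smooth) b
  unfold streamField
  rw [sub_eq_add_neg]
  exact effective_add R s1 (show ContDiff ℝ ∞ (-_) from s2.neg) h1 (effective_neg R h2)

/-- Kit shape: effectivity of a stream-function field from `Eff1` factors, given the conversion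
`Eff1 → DerivApprox`. -/
theorem stream_effective_of (R : RatOps) (hD : ∀ g : ℝ → ℝ, Eff1 g → DerivApprox g)
    {m : ℝ → ℝ} {f : Fin 3 → ℝ → ℝ} (hm : Eff1 m) (hf : ∀ i, Eff1 (f i)) (a b : Fin 3) :
    Effective (streamField m f a b) :=
  streamField_effective' R ⟨hm.smooth, hm.gevrey, hD m hm⟩
    (fun i => ⟨(hf i).smooth, (hf i).gevrey, hD _ (hf i)⟩) a b

theorem effective_sepTerm_of (R : RatOps) (hD : ∀ g : ℝ → ℝ, Eff1 g → DerivApprox g)
    {m : ℝ → ℝ} {f : Fin 3 → ℝ → ℝ} (hm : Eff1 m) (hf : ∀ i, Eff1 (f i)) (j : Fin 3) :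
    Effective (sepTerm m f j) :=
  effective_sepTerm' R ⟨hm.smooth, hm.gevrey, hD m hm⟩
    (fun i => ⟨(hf i).smooth, (hf i).gevrey, hD _ (hf i)⟩) j

end Crest.Agent.Helper3
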