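import Crest.Agent.BoxFlow.Defs

/-!
# Exploding a configuration of disjoint boxes along the first axis (package W8c of the S0170 plan)
-/

set_option autoImplicit false

open Crest.AnalysisR.BoxFlow

namespace Crest.Agent.Helper3

open Crest.Agent.BoxFlow

theorem reach_trans' {n : ℕ} {X Y Z : Conf n} (h1 : Reach X Y) (h2 : Reach Y Z) : Reach X Z := by
  induction h1 with
  | refl => exact h2
  | translate X i a d hpos hv hZ ih => exact Reach.translate X i a d hpos hv (ih h2)
  | squeeze X i a b r hpos hab hr hv hZ ih => exact Reach.squeeze X i a b r hpos hab hr hv (ih h2)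

/-- partially exploded configuration: the boxes in `T` are shifted by `d` along the axis `0` -/
def explConf {n : ℕ} (Z : Conf n) (T : Finset (Fin n)) (d : Fin n → ℚ) : Conf n :=
  ⟨fun i => if i ∈ T then Function.update (Z.c i) 0 (Z.c i 0 + d i) else Z.c i, Z.h⟩

theorem explConf_empty {n : ℕ} (Z : Conf n) (d : Fin n → ℚ) : explConf Z ∅ d = Z := by
  cases Z
  simp [explConf]

theorem explConf_univ {n : ℕ} (Z : Conf n) (d : Fin n → ℚ) :
    explConf Z Finset.univ d = ⟨fun i => Function.update (Z.c i) 0 (Z.c i 0 + d i), Z.h⟩ := by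
  simp [explConf]

theorem explode_step_valid {n : ℕ} (Z : Conf n) (hZ : Z.Pos) (hd : Z.Disj) (R : ℚ)
    (hR : ∀ i j, |Z.c i j| + Z.h i j ≤ R)
    (T : Finset (Fin n)) (d : Fin n → ℚ) (δ : ℚ) (hδ : 0 ≤ δ)
    (hT : ∀ i ∈ T, δ + 4 * R ≤ d i)
    (i : Fin n) (hi : i ∉ T) (hmax : ∀ i' ∉ T, Z.c i' 0 + Z.h i' 0 ≤ Z.c i 0 + Z.h i 0) :
    TransValid (explConf Z T d) i 0 δ := by
  have hRpos : 0 < R := lt_of_lt_of_le (hZ i 0)
    (le_trans (le_add_of_nonneg_left (abs_nonneg _)) (hR i 0))
  intro i' hi'
  have hci : (explConf Z T d).c i = Z.c i := by simp [explConf, hi]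
  unfold Crest.Agent.BoxFlow.Sep transHullC transHullH
  rw [hci]
  show ∃ j, Function.update (Z.h i) 0 (Z.h i 0 + |δ| / 2) j + Z.h i' j
      < |Function.update (Z.c i) 0 (Z.c i 0 + δ / 2) j - (explConf Z T d).c i' j|
  rw [abs_of_nonneg hδ]
  by_cases hT' : i' ∈ T
  · have hci' : (explConf Z T d).c i' = Function.update (Z.c i') 0 (Z.c i' 0 + d i') := by
      simp [explConf, hT']
    refine ⟨0, ?_⟩
    rw [hci', Function.update_self, Function.update_self, Function.update_self, lt_abs]
    right
    have h1 := hR i 0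
    have h2 := hR i' 0
    have h3 := hT i' hT'
    have h4 := le_abs_self (Z.c i 0)
    have h5 := neg_abs_le (Z.c i' 0)
    linarith
  · have hci' : (explConf Z T d).c i' = Z.c i' := by simp [explConf, hT']
    rw [hci']
    obtain ⟨j, hj⟩ := hd i i' (Ne.symm hi')
    by_cases hj0 : j = 0
    · subst hj0
      refine ⟨0, ?_⟩
      rw [Function.update_self, Function.update_self]
      have hm := hmax i' hT'
      have hpos := hZ i' 0
      rw [lt_abs] at hj ⊢
      rcases hj with hj | hj
      · left; linarith
      · exfalso; linarith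
    · refine ⟨j, ?_⟩
      rw [Function.update_of_ne hj0, Function.update_of_ne hj0]
      exact hj

theorem explode_step_eq {n : ℕ} (Z : Conf n) (T : Finset (Fin n)) (d : Fin n → ℚ) (δ : ℚ)
    (i : Fin n) (hi : i ∉ T) :
    (explConf Z T d).translate i 0 δ = explConf Z (insert i T) (Function.update d i δ) := by
  unfold Conf.translate explConf
  congr 1
  funext k
  by_cases hk : k = i
  · subst hk
    simp [hi]
  · simp [Finset.mem_insert, hk]

theorem explode_aux {n : ℕ} (Z : Conf n) (hZ : Z.Pos) (hd : Z.Disj) (R : ℚ)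
    (hR : ∀ i j, |Z.c i j| + Z.h i j ≤ R) :
    ∀ m : ℕ, m ≤ n → ∃ (T : Finset (Fin n)) (d : Fin n → ℚ), T.card = m ∧
      (∀ i ∈ T, ((n : ℚ) - m + 1) * (4 * R) ≤ d i) ∧
      (∀ i ∈ T, ∀ i' ∈ T, i ≠ i' → 4 * R ≤ |d i - d i'|) ∧
      Reach Z (explConf Z T d) := by
  intro m
  induction m with
  | zero =>
    intro _
    refine ⟨∅, fun _ => 0, by simp, by simp, by simp, ?_⟩
    rw [explConf_empty]
    exact Reach.refl Z
  | succ m ih =>
    intro hm
    obtain ⟨T, d, hcard, hlow, hpair, hreach⟩ := ih (by omega)
    have hne : (Tᶜ : Finset (Fin n)).Nonempty := by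
      rw [← Finset.card_pos, Finset.card_compl, hcard, Fintype.card_fin]
      omega
    obtain ⟨i, hiT, hmax⟩ := Finset.exists_max_image Tᶜ (fun i => Z.c i 0 + Z.h i 0) hne
    have hi : i ∉ T := Finset.mem_compl.mp hiT
    have hRpos : 0 < R := lt_of_lt_of_le (hZ i 0)
      (le_trans (le_add_of_nonneg_left (abs_nonneg _)) (hR i 0))
    have hmn : (m : ℚ) + 1 ≤ n := by exact_mod_cast hm
    set δ : ℚ := ((n : ℚ) - m) * (4 * R) with hδdef
    have hδ : 0 ≤ δ := by
      have : (0 : ℚ) ≤ (n : ℚ) - m := by linarith
      positivity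
    have hT : ∀ k ∈ T, δ + 4 * R ≤ d k := by
      intro k hk
      have := hlow k hk
      rw [hδdef]
      linarith
    have hvalid := explode_step_valid Z hZ hd R hR T d δ hδ hT i hi
      (fun i' hi' => hmax i' (Finset.mem_compl.mpr hi'))
    have heq := explode_step_eq Z T d δ i hi
    refine ⟨insert i T, Function.update d i δ, ?_, ?_, ?_, ?_⟩
    · rw [Finset.card_insert_of_notMem hi, hcard]
    · intro k hk
      rcases Finset.mem_insert.mp hk with rfl | hk
      · rw [Function.update_self, hδdef]
        push_cast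
        linarith
      · have hki : k ≠ i := fun h => hi (h ▸ hk)
        rw [Function.update_of_ne hki]
        have := hT k hk
        push_cast
        rw [hδdef] at this
        linarith
    · intro k hk k' hk' hkk'
      by_cases hki : k = i
      · by_cases hk'i : k' = i
        · exact absurd (hki.trans hk'i.symm) hkk'
        · have hk'T : k' ∈ T := (Finset.mem_insert.mp hk').resolve_left hk'i
          rw [hki, Function.update_self, Function.update_of_ne hk'i]
          have := hT k' hk'T
          rw [abs_sub_comm]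
          exact le_trans (by linarith) (le_abs_self _)
      · have hkT : k ∈ T := (Finset.mem_insert.mp hk).resolve_left hki
        by_cases hk'i : k' = i
        · rw [hk'i, Function.update_self, Function.update_of_ne hki]
          have := hT k hkT
          exact le_trans (by linarith) (le_abs_self _)
        · have hk'T : k' ∈ T := (Finset.mem_insert.mp hk').resolve_left hk'i
          rw [Function.update_of_ne hki, Function.update_of_ne hk'i]
          exact hpair k hkT k' hk'T hkk'
    · refine reach_trans' hreach ?_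
      have hpos : (explConf Z T d).Pos := hZ
      refine Reach.translate (explConf Z T d) i 0 δ hpos hvalid ?_
      rw [heq]
      exact Reach.refl _

/-- **Explosion along the axis `0`**: every box is translated by its own offset `d i`, the offsets
being pairwise `4 R` apart. -/
theorem reach_explode {n : ℕ} (Z : Conf n) (hZ : Z.Pos) (hd : Z.Disj) (R : ℚ)
    (hR : ∀ i j, |Z.c i j| + Z.h i j ≤ R) :
    ∃ d : Fin n → ℚ, (∀ i i', i ≠ i' → 4 * R ≤ |d i - d i'|) ∧
      Reach Z ⟨fun i => Function.update (Z.c i) 0 (Z.c i 0 + d i), Z.h⟩ := by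
  obtain ⟨T, d, hcard, -, hpair, hreach⟩ := explode_aux Z hZ hd R hR n le_rfl
  have hT : T = Finset.univ := by
    rw [← Finset.card_eq_iff_eq_univ, hcard, Fintype.card_fin]
  subst hT
  rw [explConf_univ] at hreach
  exact ⟨d, fun i i' hii' => hpair i (Finset.mem_univ _) i' (Finset.mem_univ _) hii', hreach⟩

end Crest.Agent.Helper3
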