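import Mathlib

/-!
# Explicit bounds for all derivatives of `Real.smoothTransition`

`|iteratedDeriv k Real.smoothTransition x| ≤ stepBound k` with
`stepBound k = 9 * 34^k * k! * (2k)!`, a primitive recursive function.
-/

set_option autoImplicit false

namespace Crest.Agent.Helper3

open Polynomial Finset
open scoped ContDiff

noncomputable section

/-- polynomials with `ψ^(k)(x) = p_k(1/x) ψ(x)` for `ψ = expNegInvGlue`. -/
def pPoly : ℕ → ℝ[X]
  | 0 => 1
  | k + 1 => X ^ 2 * (pPoly k - derivative (pPoly k))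

theorem iteratedDeriv_expNegInvGlue (k : ℕ) :
    iteratedDeriv k expNegInvGlue = fun x => (pPoly k).eval x⁻¹ * expNegInvGlue x := by
  induction k with
  | zero => funext x; simp [pPoly]
  | succ k ih =>
    rw [iteratedDeriv_succ, ih]
    funext x
    exact (expNegInvGlue.hasDerivAt_polynomial_eval_inv_mul _ x).deriv

/-- coefficient sum up to degree `N` -/
def cs (N : ℕ) (p : ℝ[X]) : ℝ := ∑ i ∈ range (N + 1), |p.coeff i|

theorem cs_nonneg (N : ℕ) (p : ℝ[X]) : 0 ≤ cs N p :=
  Finset.sum_nonneg fun _ _ => abs_nonneg _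

theorem pPoly_natDegree (k : ℕ) : (pPoly k).natDegree ≤ 2 * k := by
  induction k with
  | zero => simp [pPoly]
  | succ k ih =>
    simp only [pPoly]
    calc (X ^ 2 * (pPoly k - derivative (pPoly k))).natDegree
        ≤ (X ^ 2 : ℝ[X]).natDegree + (pPoly k - derivative (pPoly k)).natDegree :=
          natDegree_mul_le
      _ ≤ 2 + 2 * k := by
          gcongr
          · simp
          · refine (natDegree_sub_le _ _).trans (max_le ih ((natDegree_derivative_le _).trans ?_))
            omega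
      _ = 2 * (k + 1) := by ring

theorem cs_step (N : ℕ) (p : ℝ[X]) (hp : p.natDegree ≤ N) :
    cs (N + 2) (X ^ 2 * (p - derivative p)) ≤ (N + 1) * cs N p := by
  unfold cs
  rw [Finset.sum_range_succ', Finset.sum_range_succ']
  have h0 : (X ^ 2 * (p - derivative p)).coeff 0 = 0 := by
    rw [coeff_X_pow_mul']; simp
  have h1 : (X ^ 2 * (p - derivative p)).coeff (0 + 1) = 0 := by
    rw [coeff_X_pow_mul']; simp
  rw [h0, h1, abs_zero, add_zero, add_zero]
  have hterm : ∀ i, (X ^ 2 * (p - derivative p)).coeff (i + 1 + 1)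
      = p.coeff i - p.coeff (i + 1) * ((i : ℝ) + 1) := by
    intro i
    rw [show i + 1 + 1 = i + 2 by ring, coeff_X_pow_mul, coeff_sub, coeff_derivative]
  simp only [hterm]
  have hN : p.coeff (N + 1) = 0 := coeff_eq_zero_of_natDegree_lt (by omega)
  have key : ∑ i ∈ range (N + 1), ((i : ℝ) + 1) * |p.coeff (i + 1)|
      ≤ N * ∑ i ∈ range (N + 1), |p.coeff i| := by
    have e1 : ∑ i ∈ range (N + 1), ((i : ℝ) + 1) * |p.coeff (i + 1)|
        = ∑ i ∈ range (N + 2), (i : ℝ) * |p.coeff i| := by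
      rw [Finset.sum_range_succ' _ (N + 1)]
      simp
    rw [e1, Finset.sum_range_succ, hN, abs_zero, mul_zero, add_zero, Finset.mul_sum]
    refine Finset.sum_le_sum fun i hi => ?_
    have : (i : ℝ) ≤ N := by
      have := Finset.mem_range.mp hi
      exact_mod_cast (by omega : i ≤ N)
    exact mul_le_mul_of_nonneg_right this (abs_nonneg _)
  calc ∑ i ∈ range (N + 1), |p.coeff i - p.coeff (i + 1) * ((i : ℝ) + 1)|
      ≤ ∑ i ∈ range (N + 1), (|p.coeff i| + ((i : ℝ) + 1) * |p.coeff (i + 1)|) := by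
        refine Finset.sum_le_sum fun i _ => ?_
        refine (abs_sub _ _).trans ?_
        rw [abs_mul, abs_of_nonneg (by positivity : (0 : ℝ) ≤ (i : ℝ) + 1), mul_comm]
    _ = ∑ i ∈ range (N + 1), |p.coeff i|
          + ∑ i ∈ range (N + 1), ((i : ℝ) + 1) * |p.coeff (i + 1)| := Finset.sum_add_distrib
    _ ≤ ∑ i ∈ range (N + 1), |p.coeff i| + N * ∑ i ∈ range (N + 1), |p.coeff i| := by
        gcongr
    _ = (N + 1) * ∑ i ∈ range (N + 1), |p.coeff i| := by ring

theorem abs_eval_mul_exp_le (N : ℕ) (p : ℝ[X]) (hp : p.natDegree ≤ N) (y : ℝ) (hy : 0 ≤ y) :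
    |p.eval y| * Real.exp (-y) ≤ N.factorial * cs N p := by
  rw [Polynomial.eval_eq_sum_range' (Nat.lt_succ_of_le hp)]
  have hterm : ∀ i ∈ range (N + 1), y ^ i * Real.exp (-y) ≤ (N.factorial : ℝ) := by
    intro i hi
    have h1 := Real.pow_div_factorial_le_exp y hy i
    have hi' : i ≤ N := by have := Finset.mem_range.mp hi; omega
    have h2 : (i.factorial : ℝ) ≤ N.factorial := by exact_mod_cast Nat.factorial_le hi'
    have hpos : (0 : ℝ) < i.factorial := by exact_mod_cast Nat.factorial_pos i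
    have h3 : y ^ i ≤ i.factorial * Real.exp y := by
      rw [div_le_iff₀ hpos] at h1; linarith
    calc y ^ i * Real.exp (-y) ≤ (i.factorial * Real.exp y) * Real.exp (-y) := by gcongr
      _ = i.factorial := by rw [mul_assoc, ← Real.exp_add]; simp
      _ ≤ N.factorial := h2
  calc |∑ i ∈ range (N + 1), p.coeff i * y ^ i| * Real.exp (-y)
      ≤ (∑ i ∈ range (N + 1), |p.coeff i| * y ^ i) * Real.exp (-y) := by
        gcongr
        refine (Finset.abs_sum_le_sum_abs _ _).trans (le_of_eq ?_)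
        refine Finset.sum_congr rfl fun i _ => ?_
        rw [abs_mul, abs_of_nonneg (pow_nonneg hy i)]
    _ = ∑ i ∈ range (N + 1), |p.coeff i| * (y ^ i * Real.exp (-y)) := by
        rw [Finset.sum_mul]; refine Finset.sum_congr rfl fun i _ => by ring
    _ ≤ ∑ i ∈ range (N + 1), |p.coeff i| * N.factorial := by
        refine Finset.sum_le_sum fun i hi => ?_
        exact mul_le_mul_of_nonneg_left (hterm i hi) (abs_nonneg _)
    _ = N.factorial * cs N p := by
        rw [cs, Finset.mul_sum]; refine Finset.sum_congr rfl fun i _ => by ring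

theorem cs_pPoly (k : ℕ) : cs (2 * k) (pPoly k) ≤ (2 ^ k * k.factorial : ℕ) := by
  induction k with
  | zero =>
    simp [cs, pPoly]
  | succ k ih =>
    have h := cs_step (2 * k) (pPoly k) (pPoly_natDegree k)
    have e : 2 * (k + 1) = 2 * k + 2 := by ring
    rw [e]
    simp only [pPoly]
    refine h.trans ?_
    have : ((2 * k : ℕ) : ℝ) + 1 ≤ 2 * ((k : ℝ) + 1) := by push_cast; linarith
    calc (((2 * k : ℕ) : ℝ) + 1) * cs (2 * k) (pPoly k)
        ≤ (2 * ((k : ℝ) + 1)) * ((2 ^ k * k.factorial : ℕ) : ℝ) := by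
          gcongr
          exact cs_nonneg _ _
      _ = ((2 ^ (k + 1) * (k + 1).factorial : ℕ) : ℝ) := by
          push_cast [Nat.factorial_succ]; ring

/-- bound for the `k`-th derivative of `expNegInvGlue` -/
def Abd (k : ℕ) : ℕ := 2 ^ k * k.factorial * (2 * k).factorial

theorem abs_iteratedDeriv_expNegInvGlue_le (k : ℕ) (x : ℝ) :
    |iteratedDeriv k expNegInvGlue x| ≤ (Abd k : ℝ) := by
  rw [iteratedDeriv_expNegInvGlue]
  simp only
  rcases le_or_gt x 0 with hx | hx
  · rw [expNegInvGlue.zero_of_nonpos hx, mul_zero, abs_zero]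
    positivity
  · have hx' : expNegInvGlue x = Real.exp (-x⁻¹) := by
      simp [expNegInvGlue, not_le.2 hx]
    rw [hx', abs_mul, abs_of_pos (Real.exp_pos _)]
    refine (abs_eval_mul_exp_le (2 * k) (pPoly k) (pPoly_natDegree k) x⁻¹
      (inv_nonneg.2 hx.le)).trans ?_
    calc ((2 * k).factorial : ℝ) * cs (2 * k) (pPoly k)
        ≤ ((2 * k).factorial : ℝ) * ((2 ^ k * k.factorial : ℕ) : ℝ) := by
          gcongr
          exact cs_pPoly k
      _ = (Abd k : ℝ) := by unfold Abd; push_cast; ring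

/-- denominator of the smooth transition -/
def Dfun (x : ℝ) : ℝ := expNegInvGlue x + expNegInvGlue (1 - x)

/-- reciprocal of the denominator -/
def gfun (x : ℝ) : ℝ := (Dfun x)⁻¹

theorem Dfun_pos (x : ℝ) : 0 < Dfun x := Real.smoothTransition.pos_denom x

theorem exp_neg_two_ge : (1 / 8 : ℝ) ≤ Real.exp (-2) := by
  have h1 : Real.exp 1 < 2.7182818286 := Real.exp_one_lt_d9
  have h2 : Real.exp 2 = Real.exp 1 * Real.exp 1 := by
    rw [← Real.exp_add]; norm_num
  have h3 : Real.exp 2 ≤ 8 := by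
    rw [h2]
    have hpos : 0 < Real.exp 1 := Real.exp_pos 1
    nlinarith
  rw [Real.exp_neg, one_div]
  exact inv_anti₀ (Real.exp_pos 2) h3

theorem expNegInvGlue_half : expNegInvGlue (1 / 2) = Real.exp (-2) := by
  simp [expNegInvGlue]

theorem Dfun_ge (x : ℝ) : (1 / 8 : ℝ) ≤ Dfun x := by
  unfold Dfun
  rcases le_or_gt (1 / 2 : ℝ) x with hx | hx
  · have := expNegInvGlue.monotone hx
    rw [expNegInvGlue_half] at this
    have h2 := expNegInvGlue.nonneg (1 - x)
    linarith [exp_neg_two_ge]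
  · have := expNegInvGlue.monotone (show (1 / 2 : ℝ) ≤ 1 - x by linarith)
    rw [expNegInvGlue_half] at this
    have h2 := expNegInvGlue.nonneg x
    linarith [exp_neg_two_ge]

theorem contDiff_Dfun : ContDiff ℝ ∞ Dfun :=
  expNegInvGlue.contDiff.add <| expNegInvGlue.contDiff.comp <| contDiff_const.sub contDiff_id

theorem contDiff_gfun : ContDiff ℝ ∞ gfun :=
  contDiff_Dfun.inv fun x => (Dfun_pos x).ne'

theorem iteratedDeriv_Dfun (k : ℕ) (x : ℝ) :
    iteratedDeriv k Dfun x = iteratedDeriv k expNegInvGlue x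
      + (-1) ^ k * iteratedDeriv k expNegInvGlue (1 - x) := by
  have h1 : Dfun = expNegInvGlue + fun z => expNegInvGlue (1 - z) := rfl
  have hc : ContDiff ℝ ∞ expNegInvGlue := expNegInvGlue.contDiff
  have hc2 : ContDiff ℝ ∞ (fun z : ℝ => expNegInvGlue (1 - z)) :=
    expNegInvGlue.contDiff.comp <| contDiff_const.sub contDiff_id
  rw [h1, iteratedDeriv_add (hc.of_le (by exact_mod_cast le_top)).contDiffAt
    (hc2.of_le (by exact_mod_cast le_top)).contDiffAt, iteratedDeriv_comp_const_sub]
  simp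

theorem abs_iteratedDeriv_Dfun_le (k : ℕ) (x : ℝ) :
    |iteratedDeriv k Dfun x| ≤ 2 * (Abd k : ℝ) := by
  rw [iteratedDeriv_Dfun]
  refine (abs_add_le _ _).trans ?_
  rw [abs_mul, abs_pow, abs_neg, abs_one, one_pow, one_mul]
  linarith [abs_iteratedDeriv_expNegInvGlue_le k x, abs_iteratedDeriv_expNegInvGlue_le k (1 - x)]

/-- bound for the `k`-th derivative of `gfun` -/
def Hbd (k : ℕ) : ℕ := 8 * 34 ^ k * k.factorial * (2 * k).factorial

theorem geo_sum (k : ℕ) :
    32 * ∑ i ∈ range (k + 1), 2 ^ i * 34 ^ (k - i) + 2 ^ (k + 1) = 34 ^ (k + 1) := by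
  induction k with
  | zero => simp
  | succ k ih =>
    rw [Finset.sum_range_succ]
    have e : ∑ i ∈ range (k + 1), 2 ^ i * 34 ^ (k + 1 - i)
        = 34 * ∑ i ∈ range (k + 1), 2 ^ i * 34 ^ (k - i) := by
      rw [Finset.mul_sum]
      refine Finset.sum_congr rfl fun i hi => ?_
      have hi' : i ≤ k := by have := Finset.mem_range.mp hi; omega
      rw [show k + 1 - i = (k - i) + 1 by omega, pow_succ]; ring
    rw [e, Nat.sub_self, pow_zero, mul_one]
    have : 32 * (34 * ∑ i ∈ range (k + 1), 2 ^ i * 34 ^ (k - i) + 2 ^ (k + 1)) + 2 ^ (k + 1 + 1)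
        = 34 * (32 * ∑ i ∈ range (k + 1), 2 ^ i * 34 ^ (k - i) + 2 ^ (k + 1)) := by
      ring
    rw [this, ih]; ring

theorem geo_sum' (k : ℕ) :
    16 * ∑ i ∈ range k, 2 ^ (i + 1) * 34 ^ (k - (i + 1)) ≤ 34 ^ k := by
  have h := geo_sum k
  rw [Finset.sum_range_succ'] at h
  simp only [pow_zero, Nat.sub_zero, one_mul] at h
  have h2 : (34 : ℕ) ^ (k + 1) = 34 * 34 ^ k := by ring
  have h3 : (2 : ℕ) ^ (k + 1) = 2 * 2 ^ k := by ring
  omega

theorem choose_term_le (k i : ℕ) (hi : i ≤ k) :
    k.choose i * (i.factorial * (2 * i).factorial) * ((k - i).factorial * (2 * (k - i)).factorial)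
      ≤ k.factorial * (2 * k).factorial := by
  have h1 : k.choose i * i.factorial * (k - i).factorial = k.factorial :=
    Nat.choose_mul_factorial_mul_factorial hi
  have h2 : (2 * i).factorial * (2 * (k - i)).factorial ≤ (2 * k).factorial := by
    have := Nat.factorial_mul_factorial_dvd_factorial_add (2 * i) (2 * (k - i))
    rw [show 2 * i + 2 * (k - i) = 2 * k by omega] at this
    exact Nat.le_of_dvd (Nat.factorial_pos _) this
  calc k.choose i * (i.factorial * (2 * i).factorial)
        * ((k - i).factorial * (2 * (k - i)).factorial)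
      = (k.choose i * i.factorial * (k - i).factorial)
        * ((2 * i).factorial * (2 * (k - i)).factorial) := by ring
    _ ≤ k.factorial * (2 * k).factorial := by rw [h1]; exact Nat.mul_le_mul_left _ h2

theorem Hbd_rec (k : ℕ) :
    8 * ∑ i ∈ range k, k.choose (i + 1) * (2 * Abd (i + 1)) * Hbd (k - (i + 1)) ≤ Hbd k := by
  have hterm : ∀ i ∈ range k, k.choose (i + 1) * (2 * Abd (i + 1)) * Hbd (k - (i + 1))
      ≤ k.factorial * (2 * k).factorial * (16 * (2 ^ (i + 1) * 34 ^ (k - (i + 1)))) := by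
    intro i hi
    have hi' : i + 1 ≤ k := by have := Finset.mem_range.mp hi; omega
    have := choose_term_le k (i + 1) hi'
    unfold Abd Hbd
    calc k.choose (i + 1) * (2 * (2 ^ (i + 1) * (i + 1).factorial * (2 * (i + 1)).factorial))
          * (8 * 34 ^ (k - (i + 1)) * (k - (i + 1)).factorial * (2 * (k - (i + 1))).factorial)
        = (k.choose (i + 1) * ((i + 1).factorial * (2 * (i + 1)).factorial)
          * ((k - (i + 1)).factorial * (2 * (k - (i + 1))).factorial))
          * (16 * (2 ^ (i + 1) * 34 ^ (k - (i + 1)))) := by ring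
      _ ≤ k.factorial * (2 * k).factorial * (16 * (2 ^ (i + 1) * 34 ^ (k - (i + 1)))) :=
          Nat.mul_le_mul_right _ this
  calc 8 * ∑ i ∈ range k, k.choose (i + 1) * (2 * Abd (i + 1)) * Hbd (k - (i + 1))
      ≤ 8 * ∑ i ∈ range k,
          k.factorial * (2 * k).factorial * (16 * (2 ^ (i + 1) * 34 ^ (k - (i + 1)))) :=
        Nat.mul_le_mul_left _ (Finset.sum_le_sum hterm)
    _ = 8 * (k.factorial * (2 * k).factorial)
          * (16 * ∑ i ∈ range k, 2 ^ (i + 1) * 34 ^ (k - (i + 1))) := by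
        rw [← Finset.mul_sum, ← Finset.mul_sum]; ring
    _ ≤ 8 * (k.factorial * (2 * k).factorial) * 34 ^ k := Nat.mul_le_mul_left _ (geo_sum' k)
    _ = Hbd k := by unfold Hbd; ring

theorem Dfun_mul_gfun : Dfun * gfun = fun _ => (1 : ℝ) := by
  funext x
  simp only [Pi.mul_apply, gfun]
  exact mul_inv_cancel₀ (Dfun_pos x).ne'

theorem abs_iteratedDeriv_gfun_le (k : ℕ) (x : ℝ) :
    |iteratedDeriv k gfun x| ≤ (Hbd k : ℝ) := by
  induction k using Nat.strong_induction_on with
  | _ k ih =>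
    rcases Nat.eq_zero_or_pos k with rfl | hk
    · simp only [iteratedDeriv_zero, gfun, Hbd]
      rw [abs_of_pos (inv_pos.2 (Dfun_pos x))]
      have := Dfun_ge x
      have h8 : (Dfun x)⁻¹ ≤ (1 / 8 : ℝ)⁻¹ := inv_anti₀ (by norm_num) this
      norm_num at h8 ⊢
      exact h8
    · have hD : ContDiffAt ℝ k Dfun x := (contDiff_Dfun.of_le (by exact_mod_cast le_top)).contDiffAt
      have hg : ContDiffAt ℝ k gfun x := (contDiff_gfun.of_le (by exact_mod_cast le_top)).contDiffAt
      have hL := iteratedDeriv_mul hD hg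
      rw [Dfun_mul_gfun, iteratedDeriv_const, if_neg hk.ne', Finset.sum_range_succ'] at hL
      simp only [Nat.choose_zero_right, Nat.cast_one, one_mul, iteratedDeriv_zero,
        Nat.sub_zero] at hL
      have hsum : |∑ i ∈ range k, (k.choose (i + 1) : ℝ) * iteratedDeriv (i + 1) Dfun x
          * iteratedDeriv (k - (i + 1)) gfun x|
          ≤ ((∑ i ∈ range k, k.choose (i + 1) * (2 * Abd (i + 1)) * Hbd (k - (i + 1)) : ℕ) : ℝ) := by
        refine (Finset.abs_sum_le_sum_abs _ _).trans ?_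
        push_cast
        refine Finset.sum_le_sum fun i hi => ?_
        have hi' : k - (i + 1) < k := by have := Finset.mem_range.mp hi; omega
        rw [abs_mul, abs_mul, abs_of_nonneg (by positivity : (0 : ℝ) ≤ (k.choose (i + 1) : ℝ))]
        have h1 := abs_iteratedDeriv_Dfun_le (i + 1) x
        have h2 := ih _ hi'
        gcongr
      have hDg : Dfun x * iteratedDeriv k gfun x
          = -∑ i ∈ range k, (k.choose (i + 1) : ℝ) * iteratedDeriv (i + 1) Dfun x
          * iteratedDeriv (k - (i + 1)) gfun x := by linarith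
      have habs : |iteratedDeriv k gfun x| * Dfun x
          ≤ ((∑ i ∈ range k, k.choose (i + 1) * (2 * Abd (i + 1)) * Hbd (k - (i + 1)) : ℕ) : ℝ) := by
        rw [← abs_of_pos (Dfun_pos x), ← abs_mul, mul_comm, hDg, abs_neg]
        exact hsum
      have hge := Dfun_ge x
      have hrec : ((8 * ∑ i ∈ range k, k.choose (i + 1) * (2 * Abd (i + 1)) * Hbd (k - (i + 1)) : ℕ)
          : ℝ) ≤ (Hbd k : ℝ) := by exact_mod_cast Hbd_rec k
      push_cast at hrec habs
      have hnn := abs_nonneg (iteratedDeriv k gfun x)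
      nlinarith

/-- bound for the `k`-th derivative of `Real.smoothTransition` -/
def stepBound (k : ℕ) : ℕ := 9 * 34 ^ k * k.factorial * (2 * k).factorial

theorem stepBound_sum (k : ℕ) :
    ∑ i ∈ range (k + 1), k.choose i * Abd i * Hbd (k - i) ≤ stepBound k := by
  have hterm : ∀ i ∈ range (k + 1), k.choose i * Abd i * Hbd (k - i)
      ≤ k.factorial * (2 * k).factorial * (8 * (2 ^ i * 34 ^ (k - i))) := by
    intro i hi
    have hi' : i ≤ k := by have := Finset.mem_range.mp hi; omega
    have := choose_term_le k i hi'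
    unfold Abd Hbd
    calc k.choose i * (2 ^ i * i.factorial * (2 * i).factorial)
          * (8 * 34 ^ (k - i) * (k - i).factorial * (2 * (k - i)).factorial)
        = (k.choose i * (i.factorial * (2 * i).factorial)
          * ((k - i).factorial * (2 * (k - i)).factorial))
          * (8 * (2 ^ i * 34 ^ (k - i))) := by ring
      _ ≤ k.factorial * (2 * k).factorial * (8 * (2 ^ i * 34 ^ (k - i))) :=
          Nat.mul_le_mul_right _ this
  have hgeo : 4 * (8 * ∑ i ∈ range (k + 1), 2 ^ i * 34 ^ (k - i)) ≤ 4 * (9 * 34 ^ k) := by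
    have h := geo_sum k
    rw [pow_succ 34 k] at h
    generalize (∑ i ∈ range (k + 1), 2 ^ i * 34 ^ (k - i)) = S at h ⊢
    generalize (34 : ℕ) ^ k = P at h ⊢
    generalize (2 : ℕ) ^ (k + 1) = Q at h
    omega
  have hgeo' : 8 * ∑ i ∈ range (k + 1), 2 ^ i * 34 ^ (k - i) ≤ 9 * 34 ^ k :=
    Nat.le_of_mul_le_mul_left hgeo (by norm_num)
  calc ∑ i ∈ range (k + 1), k.choose i * Abd i * Hbd (k - i)
      ≤ ∑ i ∈ range (k + 1), k.factorial * (2 * k).factorial * (8 * (2 ^ i * 34 ^ (k - i))) :=
        Finset.sum_le_sum hterm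
    _ = (k.factorial * (2 * k).factorial) * (8 * ∑ i ∈ range (k + 1), 2 ^ i * 34 ^ (k - i)) := by
        rw [← Finset.mul_sum, ← Finset.mul_sum]
    _ ≤ (k.factorial * (2 * k).factorial) * (9 * 34 ^ k) := Nat.mul_le_mul_left _ hgeo'
    _ = stepBound k := by unfold stepBound; ring

theorem smoothTransition_eq_mul : Real.smoothTransition = expNegInvGlue * gfun := by
  funext x
  simp [Real.smoothTransition, gfun, Dfun, div_eq_mul_inv]

/-- **Main bound**: every derivative of `Real.smoothTransition` is bounded by `stepBound`. -/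
theorem abs_iteratedDeriv_smoothTransition_le (k : ℕ) (x : ℝ) :
    |iteratedDeriv k Real.smoothTransition x| ≤ (stepBound k : ℝ) := by
  have hψ : ContDiffAt ℝ k expNegInvGlue x :=
    ((expNegInvGlue.contDiff (n := ⊤)).of_le (by exact_mod_cast le_top)).contDiffAt
  have hg : ContDiffAt ℝ k gfun x := (contDiff_gfun.of_le (by exact_mod_cast le_top)).contDiffAt
  rw [smoothTransition_eq_mul, iteratedDeriv_mul hψ hg]
  refine (Finset.abs_sum_le_sum_abs _ _).trans ?_
  refine le_trans ?_ (by exact_mod_cast stepBound_sum k :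
    ((∑ i ∈ range (k + 1), k.choose i * Abd i * Hbd (k - i) : ℕ) : ℝ) ≤ (stepBound k : ℝ))
  push_cast
  refine Finset.sum_le_sum fun i hi => ?_
  rw [abs_mul, abs_mul, abs_of_nonneg (by positivity : (0 : ℝ) ≤ (k.choose i : ℝ))]
  have h1 := abs_iteratedDeriv_expNegInvGlue_le i x
  have h2 := abs_iteratedDeriv_gfun_le (k - i) x
  gcongr

end

/-- higher derivatives of the step vanish on `(-∞, 0]` -/
theorem iteratedDeriv_succ_smoothTransition_of_nonpos (k : ℕ) {x : ℝ} (hx : x ≤ 0) :
    iteratedDeriv (k + 1) Real.smoothTransition x = 0 := by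
  have hcont : Continuous (iteratedDeriv (k + 1) Real.smoothTransition) :=
    (Real.smoothTransition.contDiff (n := ⊤)).continuous_iteratedDeriv (k + 1)
      (by exact_mod_cast le_top)
  have hopen : ∀ y ∈ Set.Iio (0 : ℝ), iteratedDeriv (k + 1) Real.smoothTransition y = 0 := by
    intro y hy
    have : Real.smoothTransition =ᶠ[nhds y] fun _ => (0 : ℝ) := by
      filter_upwards [Iio_mem_nhds (show y < 0 from hy)] with z hz
      exact Real.smoothTransition.zero_of_nonpos (le_of_lt hz)
    rw [this.iteratedDeriv_eq, iteratedDeriv_const]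
    simp
  have hclosed : IsClosed {y : ℝ | iteratedDeriv (k + 1) Real.smoothTransition y = 0} :=
    isClosed_eq hcont continuous_const
  have hsub : closure (Set.Iio (0 : ℝ)) ⊆ {y : ℝ | iteratedDeriv (k + 1) Real.smoothTransition y = 0} :=
    hclosed.closure_subset_iff.2 hopen
  rw [closure_Iio] at hsub
  exact hsub hx

/-- higher derivatives of the step vanish on `[1, ∞)` -/
theorem iteratedDeriv_succ_smoothTransition_of_one_le (k : ℕ) {x : ℝ} (hx : 1 ≤ x) :
    iteratedDeriv (k + 1) Real.smoothTransition x = 0 := by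
  have hcont : Continuous (iteratedDeriv (k + 1) Real.smoothTransition) :=
    (Real.smoothTransition.contDiff (n := ⊤)).continuous_iteratedDeriv (k + 1)
      (by exact_mod_cast le_top)
  have hopen : ∀ y ∈ Set.Ioi (1 : ℝ), iteratedDeriv (k + 1) Real.smoothTransition y = 0 := by
    intro y hy
    have : Real.smoothTransition =ᶠ[nhds y] fun _ => (1 : ℝ) := by
      filter_upwards [Ioi_mem_nhds (show 1 < y from hy)] with z hz
      exact Real.smoothTransition.one_of_one_le (le_of_lt hz)
    rw [this.iteratedDeriv_eq, iteratedDeriv_const]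
    simp
  have hclosed : IsClosed {y : ℝ | iteratedDeriv (k + 1) Real.smoothTransition y = 0} :=
    isClosed_eq hcont continuous_const
  have hsub : closure (Set.Ioi (1 : ℝ)) ⊆ {y : ℝ | iteratedDeriv (k + 1) Real.smoothTransition y = 0} :=
    hclosed.closure_subset_iff.2 hopen
  rw [closure_Ioi] at hsub
  exact hsub hx

/-- `stepBound` by recursion -/
theorem stepBound_zero : stepBound 0 = 9 := by simp [stepBound]

theorem stepBound_succ (k : ℕ) :
    stepBound (k + 1) = stepBound k * (34 * (k + 1) * ((2 * k + 1) * (2 * k + 2))) := by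
  unfold stepBound
  rw [show 2 * (k + 1) = 2 * k + 1 + 1 by ring, Nat.factorial_succ (2 * k + 1),
    Nat.factorial_succ (2 * k), Nat.factorial_succ k, pow_succ]
  ring

theorem primrec_stepBound : Primrec stepBound := by
  have hstep : Primrec₂ (fun (k : ℕ) (v : ℕ) => v * (34 * (k + 1) * ((2 * k + 1) * (2 * k + 2)))) := by
    have hk : Primrec₂ (fun (k : ℕ) (_ : ℕ) => k) := Primrec.fst
    have hv : Primrec₂ (fun (_ : ℕ) (v : ℕ) => v) := Primrec.snd
    have c : ∀ n : ℕ, Primrec₂ (fun (_ : ℕ) (_ : ℕ) => n) := fun n => Primrec.const n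
    have h1 : Primrec₂ (fun (k : ℕ) (_ : ℕ) => k + 1) := Primrec.nat_add.comp₂ hk (c 1)
    have h2 : Primrec₂ (fun (k : ℕ) (_ : ℕ) => 2 * k) := Primrec.nat_mul.comp₂ (c 2) hk
    have h3 : Primrec₂ (fun (k : ℕ) (_ : ℕ) => 2 * k + 1) := Primrec.nat_add.comp₂ h2 (c 1)
    have h4 : Primrec₂ (fun (k : ℕ) (_ : ℕ) => 2 * k + 2) := Primrec.nat_add.comp₂ h2 (c 2)
    have h5 : Primrec₂ (fun (k : ℕ) (_ : ℕ) => (2 * k + 1) * (2 * k + 2)) :=
      Primrec.nat_mul.comp₂ h3 h4
    have h6 : Primrec₂ (fun (k : ℕ) (_ : ℕ) => 34 * (k + 1)) := Primrec.nat_mul.comp₂ (c 34) h1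
    have h7 : Primrec₂ (fun (k : ℕ) (_ : ℕ) => 34 * (k + 1) * ((2 * k + 1) * (2 * k + 2))) :=
      Primrec.nat_mul.comp₂ h6 h5
    exact Primrec.nat_mul.comp₂ hv h7
  have h := Primrec.nat_rec₁ (9 : ℕ) hstep
  refine h.of_eq fun k => ?_
  induction k with
  | zero => simp [stepBound_zero]
  | succ k ih => rw [stepBound_succ, ← ih]

theorem computable_stepBound : Computable stepBound := primrec_stepBound.to_comp

end Crest.Agent.Helper3

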