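import Crest.Agent.BoxFlow.Defs
import Crest.Agent.Helper3.StepBound

/-!
# Gevrey bounds for `expNegInvGlue` and `Real.smoothTransition` (package W3 of the S0170 plan)
-/

set_option autoImplicit false

open scoped ContDiff

namespace Crest.Agent.Helper3

open Crest.Agent.BoxFlow

theorem factorial_two_mul_le (k : ℕ) : (2 * k).factorial ≤ 4 ^ k * (k.factorial * k.factorial) := by
  have h1 : (2 * k).choose k * k.factorial * (2 * k - k).factorial = (2 * k).factorial :=
    Nat.choose_mul_factorial_mul_factorial (by omega)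
  have h2 : (2 * k).choose k ≤ 2 ^ (2 * k) := Nat.choose_le_two_pow _ _
  have h3 : (2 : ℕ) ^ (2 * k) = 4 ^ k := by rw [pow_mul]; norm_num
  rw [show 2 * k - k = k by omega] at h1
  rw [← h1, mul_assoc]
  exact Nat.mul_le_mul_right _ (h3 ▸ h2)

theorem gevreyBound_expNegInvGlue : GevreyBound expNegInvGlue 1 8 := by
  intro k x
  refine (abs_iteratedDeriv_expNegInvGlue_le k x).trans ?_
  have h : Abd k ≤ 1 * 8 ^ k * k.factorial ^ 3 := by
    unfold Abd
    calc 2 ^ k * k.factorial * (2 * k).factorial
        ≤ 2 ^ k * k.factorial * (4 ^ k * (k.factorial * k.factorial)) :=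
          Nat.mul_le_mul_left _ (factorial_two_mul_le k)
      _ = 1 * 8 ^ k * k.factorial ^ 3 := by
          rw [show (8 : ℕ) = 2 * 4 by norm_num, mul_pow]; ring
  exact_mod_cast h

theorem gevreyBound_smoothTransition : GevreyBound Real.smoothTransition 9 136 := by
  intro k x
  refine (abs_iteratedDeriv_smoothTransition_le k x).trans ?_
  have h : stepBound k ≤ 9 * 136 ^ k * k.factorial ^ 3 := by
    unfold stepBound
    calc 9 * 34 ^ k * k.factorial * (2 * k).factorial
        ≤ 9 * 34 ^ k * k.factorial * (4 ^ k * (k.factorial * k.factorial)) :=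
          Nat.mul_le_mul_left _ (factorial_two_mul_le k)
      _ = 9 * 136 ^ k * k.factorial ^ 3 := by
          rw [show (136 : ℕ) = 34 * 4 by norm_num, mul_pow]; ring
  exact_mod_cast h

theorem gevrey_expNegInvGlue : ∃ a c : ℕ, GevreyBound expNegInvGlue a c :=
  ⟨1, 8, gevreyBound_expNegInvGlue⟩

theorem gevrey_smoothTransition : ∃ a c : ℕ, GevreyBound Real.smoothTransition a c :=
  ⟨9, 136, gevreyBound_smoothTransition⟩

end Crest.Agent.Helper3
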